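import Crest.Agent.X212.Nt66.Defs
import Crest.Agent.X212.Pat85.UqA
import Crest.Agent.X212.Mp86.St2

/-!
# Row 212, NT-NUM: the indices inside a lens face
-/

set_option autoImplicit false
set_option linter.unusedSectionVars false
noncomputable section
open Set Function Filter

namespace Crest.Agent.X212.Nt9
open An M Nd18 Rf65 Mp86.St
open An.Job (Sol)

section job
variable {Wi : Type} {X : Mf 4} {A κ lam : Type} [Fintype A] [Fintype κ] [Fintype lam]
  [DecidableEq lam] {M : Mark X A κ} {W : World M} {N : ML M lam} {Λ : Lns W N}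
  {A' h : Type} [Fintype A'] [DecidableEq A'] [Fintype h] {r n : ℕ}
  {J : Job Wi Λ A' h r n} {c : M.Cl} {δ : ℝ} {σ : Cel A'} {sh : Set A'} {n₀ : ℤ} {x : A}
  {Adm : (Wi →₀ ℝ) → Prop} {q : Wi →₀ ℝ} {y : J.Obc c}

theorem U_hp (b : Bool) : M.sys.U (hp x b) = (M.sys.w x).sd b :=
  Set.ext fun _ => ⟨fun k => k x b (hp_some.2 ⟨rfl, rfl⟩), fun k _ _ e => by
    obtain ⟨rfl, rfl⟩ := hp_some.1 e; exact k⟩

/-- regularity outside gives the inequality when all limits are fixed -/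
theorem ok_of (H : H1 J c δ sh σ Adm n₀) (ha : Adm q) (hy : Sol σ q y) (f : FA J c σ n₀ y x)
    (z : ∀ i, i ∈ zw J c) (ro : RegO J c δ sh σ q y x) : Ok δ y (pO J c sh σ x) := by
  obtain ⟨b, E, x', ψ, g, k⟩ := ro
  have S := (H.sym σ _ _ _ b δ E q y x' ψ {hp x true}
    (pmF H (singleton_subset_iff.2 (hp_mem f.1.2.1 true)) univ).ph H.spl
    (Pat85.sol_out H ha hy f fun i _ _ => z i) g.ch g.sm k subset_rfl
    fun _ (e : _ = _) => .inl (e ▸ f.1.2.2.2.2)).1
  have u : UU {hp x true} (zw J c) (cylW c) ≃ UU {hp x true} (cz y) (jz y) :=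
    Equiv.subtypeEquivRight fun u => exists_congr fun i => and_congr_right fun _ => by
      rw [(Pat85.fc_H H ha hy f.1).2, show i ∈ zw J c ↔ i ∈ cz y from
        ⟨fun k => zw_cz H hy k, fun _ => z i⟩]
  rwa [Fintype.card_congr u] at S

theorem card_uu (P : Set (Reg A)) {Z : Set (Ed c)} (j : Set A) (z : ∀ i, i ∈ Z) :
    Fintype.card (UU P Z j) = 0 :=
  have : IsEmpty (UU P Z j) := ⟨fun ⟨_, i, _, k, _⟩ => k (z i)⟩
  Fintype.card_eq_zero

end job

section scene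
open G75 Ins26 Jb7 Nt66
variable {κ lam : Type} [Fintype κ] [Fintype lam] [DecidableEq lam] {Lm : LM κ lam}
  {S : Scene Lm}

/-- no wall inside a lens -/
theorem inn_ls (h : S.OK) (l : S.ls) : S.M.sys.inn (hp l.1 false) = ∅ :=
  eq_empty_of_forall_notMem fun a ⟨h1, h2, h3⟩ => by
    have e : a ≠ l := fun e => by simp [hp, e] at h1
    obtain ⟨z, hz⟩ := (S.M.sys.w a).ne false
    exact (S.M.sys.w l).not_mem_sd (U_hp (M := S.M) false ▸ h2 hz.1 :)
      (h.lsi l l.2 a e (h3 l (Sys.mem_bd_of (hp_some.2 ⟨rfl, rfl⟩))) hz.1)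

theorem nb_out (h : S.OK) {l l' : S.ls} (e : l' ≠ l) : S.nb l' ⊆ (S.M.sys.w l).sd true := fun x hx =>
  have k := disjoint_left.1 (h.lsd l' l'.2 l l.2 (Subtype.coe_injective.ne e)) (.inl hx)
  (((S.M.sys.w l).mem_cases true x).resolve_right fun j =>
    j.elim (fun j => k (.inr ((S.M.sys.w l).core_subset j))) fun j => k (.inl j))

variable (Lm) in
/-- **LEAF NUM** -/
theorem num : NfStmt Lm Num := by
  refine fun S D i Wi r n J X a₀ j n₀ T c G _ _ => ⟨1, one_pos, fun δ _ =>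
    ⟨0, fun _ => le_rfl, fun Adm _ σ q y l b E x ψ C => ?_⟩⟩
  have H := C.h1
  have z : ∀ i, i ∈ zw J c := fun i β hβ => by
    simpa using ((H.wl i.1 _ 0 (H.ok.xs i.1).1.yd (H.pj.nil _ i.1.2).1
      (C.lix.1 _ (C.ls i.1.2))).2.1 β hβ).1
  obtain ⟨h1, h2, h3, h4⟩ := (H.num q y l C.adm C.sol C.fa.1).2.2 C.fa.2.1
    (ok_of H C.adm C.sol C.fa z C.reg)
  have cw : l.1 ∈ cylW c := ⟨C.fa.1.2.1.ge rfl, C.fa.1.2.2.1⟩
  have eV : J.lv (shX S X) σ c {hp l.1 true, hp l.1 false} = J.lv (shX S X) σ c {hp l.1 true} := by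
    ext a; simp [Job.lv, inn_ls G.sc]
  have nl : l ∉ J.cs {hp l.1 true} univ := fun k => by
    obtain ⟨w, hw⟩ := (S.M.sys.w l).ne false
    have := k.2 (show w ∈ J.nb l by rw [G.nb]; exact hw.2)
    rw [biUnion_singleton, U_hp] at this
    exact (S.M.sys.w l).not_mem_sd hw.2 this
  have eH : J.cs {hp l.1 true, hp l.1 false} univ = insert l (J.cs {hp l.1 true} univ) := by
    ext l'
    refine ⟨fun _ => (em (l' = l)).imp id fun e => ⟨trivial, ?_⟩, ?_⟩
    · rw [biUnion_singleton, U_hp, G.nb]; exact nb_out G.sc e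
    · rintro (rfl | k)
      exacts [C.mem, ⟨trivial, k.2.trans (biUnion_subset_biUnion_left (by simp))⟩]
  have zc := fun i => zw_cz H C.sol (z i)
  simp only [dmy, dm, ix, Job.prt, card_uu _ _ zc, eV, eH, ncard_insert_of_notMem nl,
    finsum_mem_pair hp_ne.symm, finsum_mem_singleton, C.dim] at h2 h3 h4
  refine ⟨bk C.sol l ((Pat85.fc_H H C.adm C.sol C.fa.1).2.ge cw) ▸ h1, ?_, ?_⟩ <;> omega

end scene
end Crest.Agent.X212.Nt9
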