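import Crest.Agent.X212.Cqn41.Nr0
import Crest.Agent.X212.Dir17.Main
import Crest.Agent.X212.Num57.Nti
import Crest.Agent.X212.Nt66.Ln

/-!
# Row 212, NT-R: the Dirac block inside the wall is Fredholm
-/

set_option autoImplicit false
set_option linter.unusedSectionVars false
noncomputable section
open scoped Manifold ContDiff Topology InnerProductSpace
open MeasureTheory Set Function Filter

namespace Crest.Agent.X212.Nt9
open An An.Pre Sob92 Prm93 Fred93 Map77 Mod61 Nk89 Dir17 Cyf70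

section fmt
variable {E : Type} [NormedAddCommGroup E] [NormedSpace ℝ E] [FiniteDimensional ℝ E]
  [MeasurableSpace E] [BorelSpace E]
  {HM : Type} [TopologicalSpace HM] {I : ModelWithCorners ℝ E HM} [I.Boundaryless]
  {M : Type} [TopologicalSpace M] [ChartedSpace HM M] [IsManifold I ∞ M]
  [MeasurableSpace M] [T2Space M] [BorelSpace M] [SecondCountableTopology M]
  {ι ι' κ : Type} [Fintype ι] [Fintype ι'] [Fintype κ] [DecidableEq κ]
  {d d' : Bd M ι κ} {F : Fr I M ι'} {G : Fr I M ι} {k : ℕ} {Γ Γ' : ι → ι → ι → M → ℝ}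
  {W W' : ι → M → En κ} {O : Set M}

/-- the Dirac block over a clopen set -/
theorem dh_res (H : d.Hy F G) (C : Wz78.Cp d G Γ W) (cb : F.Cb (base W 0)) (H' : d'.Hy F G)
    (C' : Wz78.Cp d' G Γ' W') (cb' : F.Cb (base W' 0)) (hO : IsClopen O) (ρ : d'.ρ = d.ρ)
    (eW : ∀ a, ∀ x ∈ O, W' a x = W a x) (sp : Maps d'.sp d.sp fun _ => .id ℝ _)
    (off : ∀ x ∉ O, d'.sp x = 0) (sm : Maps d.sm d'.sm (O.indicator fun _ => .id ℝ _)) :
    DH d' F G k W' = F.mulH k d.sm d'.sm (O.indicator fun _ => .id ℝ _) ∘L DH d F G k W ∘L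
      F.mulH (k + 1) d'.sp d.sp fun _ => .id ℝ _ :=
  RepT_eq (RepT_comp (rep3 H' C' cb') rep_iH2) (RepT_comp (rep_mulH (Grp76.Cb_ind hO (Cb_const _)) sm)
    (RepT_comp (RepT_comp (rep3 H C cb) rep_iH2) (rep_mulH (Cb_const _) sp))) fun u => funext fun x => by
    change Wz78.dir I G.e d'.ρ W' u.1 x =
      O.indicator (fun _ => ContinuousLinearMap.id ℝ _) x (Wz78.dir I G.e d.ρ W u.1 x)
    by_cases hx : x ∈ O
    · simp only [indicator_of_mem hx, Wz78.dir, Wz78.nab, ρ, eW _ x hx]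
      rfl
    · have e : u.1 =ᶠ[𝓝 x] 0 := eventually_of_mem (hO.1.isOpen_compl.mem_nhds hx) fun y hy =>
        (u.2.2.2 y).symm.trans (by rw [off y hy]; rfl)
      simp only [indicator_of_notMem hx, Wz78.dir, Wz78.nab_congr _ e]
      simp [Wz78.nab]

variable {lam T : Type} [Fintype lam] [NormedAddCommGroup T] [NormedSpace ℝ T]
  {𝔉 : Fam I M ι lam T} {o : Ref 𝔉} {r n m : ℕ}

theorem tt_dir (h : 𝔉.OK) (y : Pnt o r) (f : o.C r k → o.Y n m k) (φ : 𝔉.F0.H (k + 1) o.Pp) :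
    fH _ k o.Pm o.P2 (sH _ k o.Pg _ (TT k f y (iH2 _ _ o.P1 o.Pp φ))) =
      (fderiv ℝ f (y.pt k) (0, φ, 0)).1 := by
  have a : SH (k + 1) o (𝔉.Si y.t) (iH2 _ _ o.P1 o.Pp φ) = iH2 _ _ o.P1 o.Pp φ :=
    DFunLike.congr_fun (RepT_eq (RepT_comp (rep_SH' o h y.ht) rep_iH2) rep_iH2
      fun u => funext fun x => ext2 (by simp [SC]) (by simp [SC])) φ
  have b : sC' o r k y.t (iH2 _ _ o.P1 o.Pp φ) = (0, φ, 0) := by simp [sC', a]
  simp [TG, b, sY_apply]

theorem td_val (h : 𝔉.OK) (hk : 4 ≤ k) (y : Pnt o r) (f : o.C r k → o.Y n m k) (hO : IsClopen O)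
    {p q : M → o.m.V →L[ℝ] o.m.V} (sp : Maps p o.Pp fun _ => .id ℝ _)
    (sm : Maps o.Pm q (O.indicator fun _ => .id ℝ _)) {φ' φ}
    (e : 𝔉.F0.val (k + 1) o.Pp φ = 𝔉.F0.val (k + 1) p φ') {w} (hw : w ∈ O) :
    𝔉.F0.val k o.Pm (fderiv ℝ f (y.pt k) (0, φ, 0)).1 w = 𝔉.F0.val k q
      ((𝔉.F0.mulH k o.Pm q (O.indicator fun _ => .id ℝ _) ∘L (fH _ k o.Pm o.P2 ∘L sH _ k o.Pg _) ∘L
        TT k f y ∘L iH2 _ _ o.P1 o.Pp ∘L 𝔉.F0.mulH (k + 1) p o.Pp fun _ => .id ℝ _) φ') w := by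
  obtain rfl : φ = 𝔉.F0.mulH (k + 1) p o.Pp (fun _ => .id ℝ _) φ' := val_injective h.sup (by omega)
    (e.trans (funext (val_mulH h.sup (by omega) (f := fun _ => .id ℝ _) (Cb_const _) sp φ')).symm)
  refine Eq.symm ((val_mulH h.sup hk (Grp76.Cb_ind hO (Cb_const _)) sm _ w).trans ?_)
  rw [indicator_of_mem hw, ← tt_dir h]
  rfl

end fmt

section job
open M Nd18 Cht98 Rf65 Rdc90 Pte3 Spl54
variable {Wi : Type} {X : Mf 4} {A κ lam : Type} [Fintype A] [Fintype κ] [Fintype lam]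
  [DecidableEq lam] {M : Mark X A κ} {W : World M} {N : ML M lam} {Λ : Lns W N}
  {A' h : Type} [Fintype A'] [DecidableEq A'] [Fintype h] {r n : ℕ}
  {J : Job Wi Λ A' h r n} {c : M.Cl} {σ : Cel A'} {δ δ₀ : ℝ}
  {p : Prt A A' h} {U : Type} [Fintype U] {b : Bp J c} {E : EC b p U δ} {y : J.Obc c}
  {x : Pnt E.o r} {ψ : E.K} {μ : Ed c → Option U} {q : Wi →₀ ℝ}

/-- the linearisation is the unperturbed one at the connection, up to a compact operator -/
theorem cq_tot (H : CS σ E) (hy : J.Ov σ c y.s) (ch : E.Ch δ₀ σ μ y x ψ) (hP : PJ J c)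
    (hF : ∀ a ∈ cylW c, ∀ β f, Bs (J.xs a).D β → Fz κ (lam ⊕ lam) 8 (Add46.jX J a) f β δ)
    {g : E.o.C r 8 → E.o.Y n (min r 1) 8} (hg : RepF (EC.tot b p U δ q) g) :
    Cq (TT 8 g x) ((bd E.o).FF (b.F p U δ).F0.toPre (Fs (b.F p U δ) x.t) 8
      (base (E.o.W x.t x.α) 0)) := by
  have hf := fun i hi t ht => flt_ch H.toPG hy ch hP (i := i) hi (t := t) ht
  have A0 := fun r n m => Add46.aff_eq0 (r := r) (n := n) (m := m) H.ee H.lit ch.z fun i k =>
    hf i ((H.act_iff _ _).1 k)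
  obtain ⟨f0, h0⟩ := (adj_rem H.F).rp (A0 0 0 0) 8 (by norm_num)
  obtain ⟨C, c1, c2⟩ := tot_cpt (U := U) (δ := δ) H.toPG hP H.hb q x.ht
  rw [← uy0 H.F (x0 x) ((add_zero _).trans ch.z)]
  refine (congrArg (Cq _) (Nat27.TT_eq H.F (by norm_num) h0 (x0 x))).mp ?_
  refine (Ends.cq_two (X := H.ee) (by norm_num) H.lit (A0 0 0 0) (H.sm.aff.tot H.F H.sm.sm q)
    h0 hg (y := x0 x) (y' := x) rfl fun i hi k k0 => ?_).symm
  have hi' := (H.act_iff _ _).1 hi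
  have l := fun r n m => Add46.loc_eq0 (r := r) (n := n) (m := m) (k := 8) H.ee H.lit hi
    (hP.nil _ i.1.2).1 k k0
  have bs := bs_sl H.ee H.lit ch.z (a := i) x.ht (hf i hi' _ x.ht)
  exact ⟨_, cyl_fz (Y := Add46.jX J i.1) bs (fun f => hF _ i.1.2 _ f bs) _ k k0, l _ _ _,
    loc_cpt H.ee (a := i) c1 c2 (l _ _ _)⟩

/-- the field part of the map of a chart -/
theorem rep_fst {f : E.C → E.Y} (hf : E.Map q f) (ψ : E.K) :
    RepF (EC.tot b p U δ q) fun v => (f (v, ψ)).1 :=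
  ⟨contDiffOn_fst.comp (hf.sm.comp (contDiffOn_id.prodMk contDiffOn_const) fun _ k => ⟨k, trivial⟩)
    (mapsTo_univ _ _), fun x => hf.e x ψ⟩

theorem der_fst (H : (b.F p U δ).OK) {f : E.C → E.Y} (hf : E.Map q f) (v : E.o.C r 8) :
    fderiv ℝ (fun v => (f (v, ψ)).1) (x.pt 8) v = (fderiv ℝ f (x.pt 8, ψ) (v, 0)).1 := by
  have k := ((hf.sm.contDiffAt ((Nt66.open_C H).mem_nhds (show (x.pt 8, ψ) ∈ _ from
    ⟨x.mem_U, trivial⟩))).differentiableAt (by simp)).hasFDerivAt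
  have k' := HasFDerivAt.comp (f := fun v => (v, ψ)) (x.pt 8) k (hasFDerivAt_prodMk_left _ ψ)
  exact DFunLike.congr_fun k'.fst.fderiv v

end job

section scene
open M Nd18 G75 Ins26 Jb7 Rf65 Pte3 Qab60 Nr41 Nt66
variable {κ lam : Type} [Fintype κ] [Fintype lam] [DecidableEq lam] {Lm : LM κ lam}
  {S : Scene Lm} {D : S.Dat} {i : S.L} {Wi : Type} {r n : ℕ}
  {J : Job Wi (D.Λ i) (S.A ⊕ Unit) S.ls r n} {c : S.M.Cl} {δ : ℝ} {σ : Cel (S.A ⊕ Unit)} {R : S.A}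
  {b : Bp J c} {E : ER σ R b δ}
  {q : Wi →₀ ℝ} {y : J.Obc c} {x : Pnt E.o r} {ψ : E.K} {ξ : (D.W.Z c).M → E.o.m.A}
  (C : Cr q y x ψ ξ) {P' : Set (Reg S.A)} (k : P' ⊆ {hp R false})
include C k

theorem ok_in : (b.F (sp (pW J c (shX S {R}) σ R) {hp R false} P' ∅) (UR J c R) δ).OK :=
  (Nti57.pg_sp C.cs.toPG Nr41.sub_in k).fam C.cs.eo.d0 C.cs.eo.d1

/-- no spinor inside -/
theorem xi_Φ : (C.xi k).cfg.Φ = 0 := funext fun z => by
  refine (zero_add _).trans (indicator_apply_eq_zero.2 fun hz => ?_)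
  have := C.ins.ab.z z ((un_one D.W.toCaps c (hp R false)).le (biUnion_subset_biUnion_left k hz))
  exact ((zero_add _).symm.trans (congrArg (· + _) (congrFun C.ch.z z).symm)).trans this

/-- the connection inside -/
theorem xi_W (a) {z} (hz : z ∈ D.W.un c {hp R false}) : (C.xi k).cfg.W a z = x.cfg.W a z := by
  have e : (C.xi k).α z = x.α z := indicator_of_mem hz _
  simp only [Pnt.cfg, Ref.W, Md.addC, Ref.A_eq, e]
  rfl

omit C k in
variable (Lm) in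
/-- **LEAF TD** -/
theorem td : All Lm fun C f => Td f C := fun _ D _ _ r _ J c hJ hP => by
  obtain ⟨δ₀, h0, h1⟩ := Spl54.exists_fz J c hJ hP
  refine ⟨δ₀, h0, fun δ hδ σ R b E q y x ψ ξ C f hf => ?_⟩
  have hy := C.θ ▸ C.cs.ovx x
  have k := fun (P' : Set _) (s : P' ⊆ {hp R false}) => pk_y (ok_in C s) _ (xi_Φ C s) (by norm_num)
    (Nti57.idx_res C.cs hy C.ch hP (h1 δ hδ).2.2 Nr41.sub_in s (s.trans Nr41.sub_in)
      (C.an.spl.ex y _ _ (fun π k => C.cs.pok.pc π (Nr41.sub_in k)) s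
        (Spl54.go_mono C.ch.go Nr41.sub_in)) 0)
  have k0 := k ∅ (empty_subset _)
  have k1 := k _ Subset.rfl
  simp only [ix, finsum_mem_singleton, finsum_mem_empty, add_zero] at k0 k1
  have z : ∀ z, z ∉ D.W.un c ∅ := fun z => by simp [Caps.un]
  have F1 := fr_DH (sp := (rf E x.t {hp R false} ∅ ∅).Pp) (sm := (rf E x.t {hp R false} ∅ ∅).Pm)
    (by exact k0) k1 (by norm_num) (fun w => indicator_of_notMem (z w) _)
    fun w => indicator_of_notMem (z w) _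
  have H := C.cs.F
  have hO := (ok_in C Subset.rfl).Om'
  have s : D.W.un c {hp R false} ⊆ (FW σ R b δ).Om' := biUnion_subset_biUnion_left Nr41.sub_in
  have sp : Maps (rf E x.t {hp R false} {hp R false} ∅).Pp E.o.Pp fun _ => .id ℝ _ := fun w v e => by
    by_cases hw : w ∈ D.W.un c {hp R false}
    · exact (DFunLike.congr_fun ((indicator_of_mem (s hw) _).trans (indicator_of_mem hw _).symm)
        v).trans e
    · rw [ind_off e hw, map_zero, map_zero]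
  have sm : Maps E.o.Pm (rf E x.t {hp R false} {hp R false} ∅).Pm
      ((D.W.un c {hp R false}).indicator fun _ => .id ℝ _) := fun w v e => by
    by_cases hw : w ∈ D.W.un c {hp R false}
    · rw [indicator_of_mem hw]
      exact (DFunLike.congr_fun ((indicator_of_mem hw _).trans (indicator_of_mem (s hw) _).symm)
        v).trans e
    · rw [indicator_of_notMem hw, _root_.zero_apply, map_zero]
  have e0 : (Spl54.x0 x).cfg.Φ = 0 := (add_zero _).trans C.ch.z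
  replace F1 := (congrArg (Fred93.Fr · _) (dh_res ((adj_rem H).hy E.o x.ht) (cp_y H x)
    (uy0 H _ e0 ▸ cb_uy H (Spl54.x0 x)) k1.hy k1.cp k1.cb hO rfl
    (fun a w hw => xi_W C Subset.rfl a hw) sp (fun w hw => indicator_of_notMem hw _) sm)).mp F1
  have cq := (((cq_tot C.cs hy C.ch hP (h1 δ hδ).2.2 (rep_fst hf ψ)).right
    (iH2 _ _ E.o.P1 E.o.Pp ∘L (FW σ R b δ).F0.mulH 9 (rf E x.t {hp R false} {hp R false} ∅).Pp E.o.Pp
      fun _ => .id ℝ _)).left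
      (fH _ 8 E.o.Pm E.o.P2 ∘L sH _ 8 E.o.Pg _)).left ((FW σ R b δ).F0.mulH 8 E.o.Pm
        (rf E x.t {hp R false} {hp R false} ∅).Pm ((D.W.un c {hp R false}).indicator fun _ => .id ℝ _))
  refine ⟨_, cq.fr F1, fun φ' φ e w hw => ?_⟩
  refine Eq.trans ?_ (td_val H (by norm_num) x _ hO sp sm e ((un_one D.W.toCaps c _).ge hw))
  rw [der_fst H hf]

end scene
end Crest.Agent.X212.Nt9
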